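import Vale.Agent.P101.MathlibUsed

/-! Central sequences and characters of the central sequence algebra, for the final statements. -/

open Filter Topology

namespace Vale.Agent.P101

universe u

/-- `x` represents an element of `F_ω(A)`: a bounded sequence with `‖x n * a - a * x n‖ → 0` along
`ω` for every `a : A`. -/
structure IsCentral {A : Type u} [CStarAlgebra A] (ω : Filter ℕ) (x : ℕ → A) : Prop where
  bounded : ∃ C : ℝ, ∀ n, ‖x n‖ ≤ C
  central : ∀ a : A, Tendsto (fun n => ‖x n * a - a * x n‖) ω (𝓝 0)

/-- `χ` is a character of `F_ω(A)`, given by its values on representing sequences. -/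
structure IsCharacter {A : Type u} [CStarAlgebra A] (ω : Filter ℕ) (χ : (ℕ → A) → ℂ) : Prop where
  null : ∀ x, IsCentral ω x → Tendsto (fun n => ‖x n‖) ω (𝓝 0) → χ x = 0
  one : χ 1 = 1
  add : ∀ x y, IsCentral ω x → IsCentral ω y → χ (x + y) = χ x + χ y
  mul : ∀ x y, IsCentral ω x → IsCentral ω y → χ (x * y) = χ x * χ y
  smul : ∀ (c : ℂ) (x), IsCentral ω x → χ (c • x) = c * χ x
  star : ∀ x, IsCentral ω x → χ (star x) = star (χ x)

end Vale.Agent.P101
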