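import Vale.Agent.P101.MathlibUsed

/-! The Jiang-Su algebra and tensor products, for the final statements. -/

open scoped Kronecker TensorProduct

namespace Vale.Agent.P101

universe u

/-- `R` is isomorphic to the dimension drop algebra `I(p, q)` of all continuous
`f : [0,1] → M_p ⊗ M_q` with `f 0 ∈ M_p ⊗ 1` and `f 1 ∈ 1 ⊗ M_q`. -/
structure IsDimDrop {Z : Type u} [CStarAlgebra Z] (p q : ℕ) (R : StarSubalgebra ℂ Z) : Prop where
  iso : ∃ S : StarSubalgebra ℂ C(unitInterval, Matrix (Fin p × Fin q) (Fin p × Fin q) ℂ),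
    (∀ f, f ∈ S ↔
      (∃ x : Matrix (Fin p) (Fin p) ℂ, f 0 = x ⊗ₖ (1 : Matrix (Fin q) (Fin q) ℂ)) ∧
      (∃ y : Matrix (Fin q) (Fin q) ℂ, f 1 = (1 : Matrix (Fin p) (Fin p) ℂ) ⊗ₖ y)) ∧
    Nonempty (S ≃⋆ₐ[ℂ] R)

/-- Any two unital star-homomorphisms `Z → B` with commuting ranges are approximately unitarily
equivalent. -/
structure HalfFlip (Z B : Type u) [CStarAlgebra Z] [CStarAlgebra B] : Prop where
  flip : ∀ φ ψ : Z →⋆ₐ[ℂ] B, (∀ x y, Commute (φ x) (ψ y)) → ∀ (S : Finset Z) (ε : ℝ), 0 < ε →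
    ∃ v ∈ unitary B, ∀ x ∈ S, ‖v * φ x * star v - ψ x‖ < ε

/-- `Z` is the closure of an increasing sequence of prime dimension drop algebras with the same
unit, and it has approximately inner half-flip. -/
structure IsJiangSuAlgebra (Z : Type u) [CStarAlgebra Z] : Prop where
  limit : ∃ (p q : ℕ → ℕ) (R : ℕ → StarSubalgebra ℂ Z), Monotone R ∧
    (∀ n, 0 < p n ∧ 0 < q n ∧ Nat.Coprime (p n) (q n) ∧ IsDimDrop (p n) (q n) (R n)) ∧
    Dense (⋃ n, (R n : Set Z))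
  half_flip : ∀ (B : Type u) [CStarAlgebra B], HalfFlip Z B

/-- `B` is, via `i` and `j`, a C*-completion of the algebraic tensor product `A ⊗ Z`. -/
structure IsTensorCompletion {A Z B : Type u} [CStarAlgebra A] [CStarAlgebra Z] [CStarAlgebra B]
    (i : A →⋆ₐ[ℂ] B) (j : Z →⋆ₐ[ℂ] B) : Prop where
  comm : ∀ a z, Commute (i a) (j z)
  injective : Function.Injective
    (Algebra.TensorProduct.lift (i : A →ₐ[ℂ] B) (j : Z →ₐ[ℂ] B) comm)
  dense : DenseRange
    (Algebra.TensorProduct.lift (i : A →ₐ[ℂ] B) (j : Z →ₐ[ℂ] B) comm)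

end Vale.Agent.P101
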