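import Vale.Agent.P101.StmtChar

/-! Unital homs from dimension drop algebras to the central sequence algebra, for the final
statements. -/

open Filter Topology
open scoped Kronecker

namespace Vale.Agent.P101

universe u v

/-- `Φ` is a lift of a unital star-homomorphism from `D` to `F_ω(A)`. -/
structure IsHomLift {A : Type u} [CStarAlgebra A] {D : Type v} [Ring D] [StarRing D]
    [Algebra ℂ D] (ω : Filter ℕ) (Φ : D → ℕ → A) : Prop where
  central : ∀ f, IsCentral ω (Φ f)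
  one : Tendsto (fun n => ‖Φ 1 n - 1‖) ω (𝓝 0)
  add : ∀ f g, Tendsto (fun n => ‖Φ (f + g) n - (Φ f n + Φ g n)‖) ω (𝓝 0)
  mul : ∀ f g, Tendsto (fun n => ‖Φ (f * g) n - Φ f n * Φ g n‖) ω (𝓝 0)
  smul : ∀ (c : ℂ) (f), Tendsto (fun n => ‖Φ (c • f) n - c • Φ f n‖) ω (𝓝 0)
  star : ∀ f, Tendsto (fun n => ‖Φ (star f) n - star (Φ f n)‖) ω (𝓝 0)

/-- There is a unital star-homomorphism from the dimension drop algebra `I(p, q)` of all continuous
`f : [0,1] → M_p ⊗ M_q` with `f 0 ∈ M_p ⊗ 1` and `f 1 ∈ 1 ⊗ M_q` to `F_ω(A)`. -/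
structure DimDropMaps (A : Type u) [CStarAlgebra A] (ω : Filter ℕ) (p q : ℕ) : Prop where
  hom : ∃ (S : StarSubalgebra ℂ C(unitInterval, Matrix (Fin p × Fin q) (Fin p × Fin q) ℂ))
    (Φ : S → ℕ → A),
    (∀ f, f ∈ S ↔
      (∃ x : Matrix (Fin p) (Fin p) ℂ, f 0 = x ⊗ₖ (1 : Matrix (Fin q) (Fin q) ℂ)) ∧
      (∃ y : Matrix (Fin q) (Fin q) ℂ, f 1 = (1 : Matrix (Fin p) (Fin p) ℂ) ⊗ₖ y)) ∧
    IsHomLift ω Φ

end Vale.Agent.P101
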