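import Vale.Agent.P101.StmtZ

/-! `𝒵`-stability, for the final statements. -/

namespace Vale.Agent.P101

universe u

/-- `A` is isomorphic to `B` whenever `B` is a C*-completion of `A ⊗ Z`. -/
structure Absorbs (A Z B : Type u) [CStarAlgebra A] [CStarAlgebra Z] [CStarAlgebra B] : Prop where
  iso : ∀ (i : A →⋆ₐ[ℂ] B) (j : Z →⋆ₐ[ℂ] B), IsTensorCompletion i j → Nonempty (A ≃⋆ₐ[ℂ] B)

/-- `A` is isomorphic to its tensor product with the Jiang-Su algebra. -/
structure IsZStable (A : Type u) [CStarAlgebra A] : Prop where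
  absorbs : ∀ (Z B : Type u) [CStarAlgebra Z] [CStarAlgebra B], IsJiangSuAlgebra Z → Absorbs A Z B

end Vale.Agent.P101
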