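import Mathlib.Algebra.Order.Quantale
import Mathlib.Algebra.Order.Ring.Star
import Mathlib.Analysis.CStarAlgebra.ContinuousFunctionalCalculus.Commute
import Mathlib.Analysis.CStarAlgebra.Hom
import Mathlib.Analysis.CStarAlgebra.Matrix
import Mathlib.Analysis.CStarAlgebra.Module.Constructions
import Mathlib.Analysis.Normed.Unbundled.RingSeminorm
import Mathlib.Data.Int.Star
import Mathlib.Data.Matrix.PEquiv
import Mathlib.LinearAlgebra.Matrix.FiniteDimensional
import Mathlib.RingTheory.Congruence.Hom
import Mathlib.RingTheory.Flat.FaithfullyFlat.Algebra
import Mathlib.RingTheory.Flat.TorsionFree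
import Mathlib.RingTheory.SimpleRing.Principal
import Mathlib.RingTheory.TwoSidedIdeal.Instances
import Mathlib.Tactic
import Mathlib.Topology.Algebra.ProperAction.Basic
import Mathlib.Topology.ContinuousMap.SecondCountableSpace

/-! The part of Mathlib that the development of this folder uses. -/
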